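import Vale.Agent.P011Z.MaxG.Idem

/-!
Descent of spectral projections; the centraliser of a grading in the Lie algebra.
-/

open Matrix

namespace Vale.Agent.P011Z.Mx

variable {n : Type} [Fintype n] [DecidableEq n] {S : Sys n} {I : Type} [Fintype I]
  {F : Type} [Field F]

theorem dec_spec {Y : Matrix n n F} {σ : Finset F} {π : F → Matrix n n F}
    (h : IsSpec Y σ π) : IsDec fun μ : σ => π μ :=
  ⟨(Finset.sum_coe_sort σ π).trans h.sum, fun μ => h.idem μ,
    fun _ _ h1 => h.orth _ _ fun h2 => h1 (Subtype.ext h2)⟩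

omit [Fintype n] [DecidableEq n] in
theorem map_fixed {Ω : Type} [Field Ω] [Algebra F Ω] (Y : Matrix n n F) (φ : Ω ≃ₐ[F] Ω) :
    (Y.map (algebraMap F Ω)).map φ.toRingEquiv = Y.map (algebraMap F Ω) := by
  ext i j
  exact φ.commutes _

/-- Descent of invariant combinations of the spectral projections. -/
theorem descent {Ω : Type} [Field Ω] [Algebra F Ω] [IsGalois F Ω] {Y : Matrix n n F}
    {σ : Finset Ω} {π : Ω → Matrix n n Ω} (h : IsSpec (Y.map (algebraMap F Ω)) σ π) (c : Ω → Ω)
    (hc : ∀ (φ : Ω ≃ₐ[F] Ω) μ, c (φ μ) = φ (c μ)) :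
    ∃ M : Matrix n n F, M.map (algebraMap F Ω) = ∑ μ : σ, c μ • π μ := by
  refine exists_map_of_fixed fun φ => ?_
  have h1 : ∀ μ, (π μ).map φ = π (φ μ) := fun μ => h.map_eq φ.toRingEquiv (map_fixed Y φ) μ
  have h2 : ∀ μ, μ ∈ σ ↔ φ.toEquiv μ ∈ σ := fun μ => by
    rw [← h.ne, ← h.ne]
    change _ ↔ π (φ μ) ≠ 0
    rw [← h1]
    exact (map_ne_zero_iff φ.toRingEquiv.mapMatrix φ.toRingEquiv.mapMatrix.injective).symm
  conv_rhs => rw [← (Equiv.subtypeEquiv φ.toEquiv h2).sum_comp fun μ : σ => c μ • π μ]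
  ext i j
  simp only [map_apply, Matrix.sum_apply, map_sum, Matrix.smul_apply, smul_eq_mul, map_mul]
  refine Finset.sum_congr rfl fun μ _ => ?_
  change _ = c (φ μ) * π (φ μ) i j
  rw [hc, ← h1]
  rfl

omit [Fintype n] [DecidableEq n] in
theorem map_inj {F' : Type} [Field F'] (φ : F →+* F') {A B : Matrix n n F}
    (h : A.map φ = B.map φ) : A = B := map_injective φ.injective h

theorem dec_map {F' : Type} [Field F'] (φ : F →+* F') {e : I → Matrix n n F} (he : IsDec e) :
    IsDec fun i => (e i).map φ := by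
  refine ⟨?_, fun i => by rw [← Matrix.map_mul, he.idem], fun i j h => ?_⟩
  · have h := congrArg φ.mapMatrix he.sum
    rwa [map_sum, map_one] at h
  · rw [← Matrix.map_mul, he.orth _ _ h, Matrix.map_zero _ (map_zero φ)]

theorem dec_of_map {F' : Type} [Field F'] (φ : F →+* F') {e : I → Matrix n n F}
    (he : IsDec fun i => (e i).map φ) : IsDec e := by
  refine ⟨map_inj φ ?_, fun i => map_inj φ ?_, fun i j h => map_inj φ ?_⟩
  · change φ.mapMatrix _ = φ.mapMatrix _
    rw [map_sum, map_one]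
    exact he.sum
  · rw [Matrix.map_mul, he.idem]
  · rw [Matrix.map_mul, he.orth _ _ h, Matrix.map_zero _ (map_zero φ)]

omit [DecidableEq n] in
theorem commute_map {F' : Type} [Field F'] (φ : F →+* F') {A B : Matrix n n F} :
    Commute (A.map φ) (B.map φ) ↔ Commute A B := by
  refine ⟨fun h => map_inj φ ?_, fun h => ?_⟩
  · rw [Matrix.map_mul, Matrix.map_mul]
    exact h
  · change _ = _
    rw [← Matrix.map_mul, ← Matrix.map_mul, h.eq]

/-- The shift of the generalised eigenspaces. -/
theorem shift_eq_zero {H X : Matrix n n F} {σ : Finset F} {π : F → Matrix n n F}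
    (h : IsSpec H σ π) (hX : H * X - X * H = X) {μ ν : F} (hν : ν ≠ μ + 1) :
    π ν * X * π μ = 0 := by
  set A := π ν * X * π μ with hA
  set B := (H - μ • (1 : Matrix n n F)) * π μ + (μ + 1 - ν) • (1 : Matrix n n F) with hB
  have hu : IsUnit B := by
    refine (h.nil μ).isUnit_add_right_of_commute ?_ (commute_smul_one _ _).symm
    rw [← Algebra.algebraMap_eq_smul_one]
    exact (sub_ne_zero.2 hν.symm).isUnit.map _
  have h1 : (H - ν • (1 : Matrix n n F)) * π ν * A = A * B := by
    have e1 : H * X = X * H + X := (sub_eq_iff_eq_add'.1 hX)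
    have e2 : π ν * A = A := by rw [hA, ← mul_assoc, ← mul_assoc, h.idem]
    have e3 : A * π μ = A := by rw [hA, mul_assoc, h.idem]
    have e4 : H * A = A * H + A := by
      rw [hA, ← mul_assoc, ← mul_assoc, ← (h.comm_self ν).eq, mul_assoc (π ν), e1, mul_add,
        add_mul, mul_assoc (π ν * X), (h.comm_self μ).eq]
      simp only [mul_assoc]
    rw [mul_assoc, e2, hB, mul_add, ← (h.comm_sub μ μ).eq, ← mul_assoc A, e3, sub_mul, mul_sub, e4]
    simp only [smul_mul_assoc, mul_smul_comm, one_mul, mul_one]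
    simp only [sub_smul, add_smul, one_smul]
    abel
  have h2 : ∀ m : ℕ, ((H - ν • (1 : Matrix n n F)) * π ν) ^ m * A = A * B ^ m := by
    intro m
    induction m with
    | zero => simp
    | succ m ih => rw [pow_succ, mul_assoc, h1, ← mul_assoc, ih, mul_assoc, ← pow_succ]
  obtain ⟨m, hm⟩ := h.nil ν
  have h3 := h2 m
  rw [hm, zero_mul] at h3
  exact (hu.pow m).mul_left_eq_zero.1 h3.symm

variable [CharZero F] {e : I → Matrix n n F} {k : I → ℤ}

omit [CharZero F] in
theorem ad_block (he : IsDec e) (w : I → F) (c : I → I → F) (Y : Matrix n n F) :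
    (∑ i, w i • e i) * (∑ i, ∑ j, c i j • (e i * Y * e j)) -
      (∑ i, ∑ j, c i j • (e i * Y * e j)) * ∑ i, w i • e i =
      ∑ i, ∑ j, ((w i - w j) * c i j) • (e i * Y * e j) := by
  have h1 : ∀ j, e j * ∑ i, w i • e i = w j • e j := fun j => by
    rw [Finset.mul_sum, Finset.sum_eq_single j]
    · rw [mul_smul_comm, he.idem]
    · intro i _ hi
      rw [mul_smul_comm, he.orth _ _ hi.symm, smul_zero]
    · simp
  rw [Finset.mul_sum, Finset.sum_mul Finset.univ fun i => ∑ j, c i j • (e i * Y * e j),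
    ← Finset.sum_sub_distrib]
  refine Finset.sum_congr rfl fun i _ => ?_
  rw [Finset.mul_sum, Finset.sum_mul Finset.univ fun j => c i j • (e i * Y * e j),
    ← Finset.sum_sub_distrib]
  refine Finset.sum_congr rfl fun j _ => ?_
  rw [mul_smul_comm, smul_mul_assoc, ← mul_assoc, ← mul_assoc, he.sum_mul,
    mul_assoc (e i * Y) (e j), h1, smul_mul_assoc, smul_mul_assoc, mul_smul_comm, smul_smul,
    smul_smul, ← sub_smul]
  congr 1
  ring

/-- The neutral component. -/
theorem diag_mem (h : S.Gr e k) {Y : Matrix n n F} (hY : Y ∈ S.lie F) :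
    ∑ i, e i * Y * e i ∈ S.lie F := by
  classical
  have key : ∀ s : Finset F, ∑ i, ∑ j, (∏ d ∈ s, ((k i : F) - k j - d)) • (e i * Y * e j) ∈
      S.lie F := by
    intro s
    induction s using Finset.induction with
    | empty =>
      simp only [Finset.prod_empty, one_smul]
      simp only [← Finset.mul_sum, ← Finset.sum_mul, h.dec.sum, one_mul, mul_one]
      exact hY
    | insert d s hd ih =>
      have h1 := sub_mem (Sys.bracket_mem h.mem ih) (Submodule.smul_mem _ d ih)
      rw [ad_block h.dec] at h1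
      simp only [Finset.smul_sum, ← Finset.sum_sub_distrib, smul_smul, ← sub_smul, ← sub_mul] at h1
      simp only [Finset.prod_insert hd]
      exact h1
  let s : Finset F := (Finset.univ.image fun x : I × I => (k x.1 : F) - k x.2).erase 0
  have h1 := key s
  have hp : (∏ d ∈ s, (0 - d)) ≠ 0 := Finset.prod_ne_zero_iff.2 fun d hd => by
    rw [zero_sub, neg_ne_zero]
    exact Finset.ne_of_mem_erase hd
  have e1 : ∑ i, ∑ j, (∏ d ∈ s, ((k i : F) - k j - d)) • (e i * Y * e j) =
      (∏ d ∈ s, (0 - d)) • ∑ i, e i * Y * e i := by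
    rw [Finset.smul_sum]
    refine Finset.sum_congr rfl fun i _ => ?_
    rw [Finset.sum_eq_single i]
    · rw [sub_self]
    · intro j _ hj
      rw [Finset.prod_eq_zero (i := (k i : F) - k j) ?_ (sub_self _), zero_smul]
      refine Finset.mem_erase.2 ⟨sub_ne_zero.2 fun h2 => hj.symm (h.inj ?_),
        Finset.mem_image.2 ⟨(i, j), Finset.mem_univ _, rfl⟩⟩
      exact_mod_cast h2
    · simp
  rw [e1] at h1
  exact ((S.lie F).smul_mem_iff hp).1 h1

omit [CharZero F] in
theorem diag_comm (he : IsDec e) (Y : Matrix n n F) (j : I) :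
    Commute (∑ i, e i * Y * e i) (e j) := by
  change _ = _
  rw [Finset.sum_mul, Finset.mul_sum, Finset.sum_eq_single j, Finset.sum_eq_single j]
  · rw [mul_assoc, he.idem, ← mul_assoc, ← mul_assoc, he.idem]
  · intro i _ hi
    rw [← mul_assoc, ← mul_assoc, he.orth _ _ hi.symm, zero_mul, zero_mul]
  · simp
  · intro i _ hi
    rw [mul_assoc, he.orth _ _ hi, mul_zero]
  · simp

omit [CharZero F] in
theorem trace_diag (he : IsDec e) {A : Matrix n n F} (hA : ∀ i, Commute A (e i))
    (Y : Matrix n n F) : (A * ∑ i, e i * Y * e i).trace = (A * Y).trace := by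
  conv_rhs => rw [← mul_one A, ← he.sum, Finset.mul_sum, Finset.sum_mul, trace_sum]
  rw [Finset.mul_sum, trace_sum]
  refine Finset.sum_congr rfl fun i _ => ?_
  rw [← mul_assoc, trace_mul_comm, ← mul_assoc, ← mul_assoc, ← (hA i).eq, mul_assoc A, he.idem]

/-- A nilpotent element of the centraliser is a commutator with itself. -/
theorem exists_ad (h : S.Gr e k) (hT : S.TrNd F) {X : Matrix n n F} (hX : X ∈ S.lie F)
    (hc : ∀ i, Commute X (e i)) (hn : IsNilpotent X) :
    ∃ H ∈ S.lie F, (∀ i, Commute H (e i)) ∧ H * X - X * H = X := by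
  let J : Submodule F (Matrix n n F) :=
    { carrier := {A | ∃ H ∈ S.lie F, (∀ i, Commute H (e i)) ∧ H * X - X * H = A}
      zero_mem' := ⟨0, zero_mem _, fun _ => Commute.zero_left _, by simp⟩
      add_mem' := by
        rintro _ _ ⟨H, h1, h2, rfl⟩ ⟨H', h1', h2', rfl⟩
        exact ⟨H + H', add_mem h1 h1', fun i => (h2 i).add_left (h2' i), by noncomm_ring⟩
      smul_mem' := by
        rintro c _ ⟨H, h1, h2, rfl⟩
        exact ⟨c • H, Submodule.smul_mem _ c h1, fun i => (h2 i).smul_left c, by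
          rw [smul_mul_assoc, mul_smul_comm, smul_sub]⟩ }
  have hJ : J ≤ S.lie F := by
    rintro _ ⟨H, h1, -, rfl⟩
    exact Sys.bracket_mem h1 hX
  have h1 : X ∈ S.perp (S.perp J) := by
    refine ⟨hX, fun W hW => ?_⟩
    set W0 := ∑ i, e i * W * e i with hW0
    have h2 : W0 ∈ S.lie F := diag_mem h hW.1
    have h3 : ∀ i, Commute W0 (e i) := diag_comm h.dec W
    have h4 : ∀ i, Commute (X * W0 - W0 * X) (e i) := fun i =>
      ((hc i).mul_left (h3 i)).sub_left ((h3 i).mul_left (hc i))
    have h5 : X * W0 - W0 * X = 0 := hT _ (Sys.bracket_mem hX h2) fun Y hY => by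
      rw [← trace_diag h.dec h4]
      set Y0 := ∑ i, e i * Y * e i with hY0
      have h6 : ∀ i, Commute Y0 (e i) := diag_comm h.dec Y
      have h7 := hW.2 _ ⟨Y0, diag_mem h hY, h6, rfl⟩
      rw [← trace_diag h.dec fun i => ((h6 i).mul_left (hc i)).sub_left ((hc i).mul_left (h6 i)),
        ← hW0] at h7
      rw [← h7, sub_mul, sub_mul, trace_sub, trace_sub, trace_mul_comm (X * W0), ← mul_assoc,
        mul_assoc W0, trace_mul_comm W0]
    rw [trace_mul_comm, ← trace_diag h.dec hc, ← hW0]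
    exact (Matrix.isNilpotent_trace_of_isNilpotent
      (Commute.isNilpotent_mul_right (sub_eq_zero.1 h5) hn)).eq_zero
  rw [Sys.perp_perp hT hJ] at h1
  exact h1

end Vale.Agent.P011Z.Mx
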