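import Vale.Agent.P011Z.Grad

/-!
Idempotent matrices: rank, trace, determinants; grouping of decompositions.
-/

open Matrix

namespace Vale.Agent.P011Z.Mx

variable {n : Type} [Fintype n] [DecidableEq n] {F : Type} [Field F]

theorem exists_factor {P : Matrix n n F} (hP : P * P = P) :
    ∃ (A : Matrix n (Fin P.rank) F) (B : Matrix (Fin P.rank) n F), A * B = P ∧ B * A = 1 := by
  let b : Module.Basis (Fin P.rank) F (LinearMap.range P.mulVecLin) := Module.finBasis F _
  refine ⟨LinearMap.toMatrix b (Pi.basisFun F n) (LinearMap.range P.mulVecLin).subtype,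
    LinearMap.toMatrix (Pi.basisFun F n) b P.mulVecLin.rangeRestrict, ?_, ?_⟩
  · have e : (LinearMap.range P.mulVecLin).subtype ∘ₗ P.mulVecLin.rangeRestrict = toLin' P := rfl
    rw [← LinearMap.toMatrix_comp, e, LinearMap.toMatrix_eq_toMatrix', LinearMap.toMatrix'_toLin']
  · rw [← LinearMap.toMatrix_comp, ← LinearMap.toMatrix_id b]
    congr 1
    ext1 ⟨_, x, rfl⟩
    refine Subtype.ext ?_
    change P *ᵥ (P *ᵥ x) = P *ᵥ x
    rw [mulVec_mulVec, hP]

theorem trace_idem {P : Matrix n n F} (hP : P * P = P) : P.trace = (P.rank : F) := by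
  obtain ⟨A, B, h1, h2⟩ := exists_factor hP
  conv_lhs => rw [← h1, trace_mul_comm, h2, trace_one, Fintype.card_fin]

omit [DecidableEq n] in
theorem rank_ne_zero {P : Matrix n n F} (hP : P ≠ 0) : P.rank ≠ 0 := by
  classical
  intro h
  rw [Matrix.rank, Submodule.finrank_eq_zero, LinearMap.range_eq_bot, ← toLin'_apply'] at h
  exact hP ((map_eq_zero_iff _ Matrix.toLin'.injective).1 h)

theorem det_idem {P : Matrix n n F} (hP : P * P = P) (w : F) :
    (w • P + (1 - P)).det = w ^ P.rank := by
  obtain ⟨A, B, h1, h2⟩ := exists_factor hP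
  have e : w • P + (1 - P) = 1 + ((w - 1) • A) * B := by
    rw [Matrix.smul_mul, h1, sub_smul, one_smul]
    abel
  have e2 : (1 : Matrix (Fin P.rank) (Fin P.rank) F) + (w - 1) • 1 = w • 1 := by
    rw [sub_smul, one_smul]
    abel
  rw [e, det_one_add_mul_comm, Matrix.mul_smul, h2, e2, det_smul, det_one, mul_one,
    Fintype.card_fin]

theorem det_one_add_nil {N : Matrix n n F} (hN : IsNilpotent N) : (1 + N).det = 1 := by
  have h := (Matrix.isNilpotent_charpoly_sub_pow_of_isNilpotent hN.neg).eq_zero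
  rw [sub_eq_zero] at h
  have h2 := Matrix.eval_charpoly (-N) 1
  rw [h, map_one, sub_neg_eq_add] at h2
  rw [← h2]
  simp

theorem dl_zero (z : Matrix n n F) : dl 0 z = 1 := by simp [dl]

theorem dl_add {P Q z : Matrix n n F} (hPQ : P * Q = 0) (hQP : Q * P = 0) (hP : Commute z P)
    (hQ : Commute z Q) : dl (P + Q) z = dl P z * dl Q z := by
  have h1 : P * z * Q = 0 := by rw [← hP.eq, mul_assoc, hPQ, mul_zero]
  have h2 : Q * z * P = 0 := by rw [← hQ.eq, mul_assoc, hQP, mul_zero]
  have h3 : P * z * P * Q = 0 := by rw [mul_assoc, hPQ, mul_zero]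
  have h4 : P * (Q * z * Q) = 0 := by rw [← mul_assoc, ← mul_assoc, hPQ, zero_mul, zero_mul]
  have h5 : P * z * P * (Q * z * Q) = 0 := by rw [mul_assoc, h4, mul_zero]
  rw [dl, dl, dl, ← det_mul]
  congr 1
  simp only [add_mul, mul_add, sub_mul, mul_sub, one_mul, mul_one, h1, h2, h3, h4, h5, hPQ]
  abel

theorem dl_sum {J : Type} (s : Finset J) {P : J → Matrix n n F} {z : Matrix n n F}
    (ho : ∀ i j, i ≠ j → P i * P j = 0) (hc : ∀ i, Commute z (P i)) :
    dl (∑ i ∈ s, P i) z = ∏ i ∈ s, dl (P i) z := by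
  classical
  induction s using Finset.induction with
  | empty => simp [dl_zero]
  | insert j s hj ih =>
    rw [Finset.sum_insert hj, Finset.prod_insert hj, ← ih]
    refine dl_add ?_ ?_ (hc j) (Commute.sum_right _ _ _ fun i _ => hc i)
    · rw [Finset.mul_sum]
      exact Finset.sum_eq_zero fun i hi => ho _ _ fun e => hj (e ▸ hi)
    · rw [Finset.sum_mul]
      exact Finset.sum_eq_zero fun i hi => ho _ _ fun e => hj (e ▸ hi)

theorem dl_eig {P z : Matrix n n F} (hP : P * P = P) (hc : Commute z P) {μ : F} (hμ : μ ≠ 0)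
    (hn : IsNilpotent ((z - μ • (1 : Matrix n n F)) * P)) : dl P z = μ ^ P.rank := by
  have h1 : P * ((z - μ • (1 : Matrix n n F)) * P) = (z - μ • (1 : Matrix n n F)) * P := by
    have h2 : Commute P (z - μ • (1 : Matrix n n F)) :=
      hc.symm.sub_right (commute_smul_one μ P).symm
    rw [← mul_assoc, h2.eq, mul_assoc, hP]
  have e : P * z * P + (1 - P) =
      (μ • P + (1 - P)) * (1 + μ⁻¹ • ((z - μ • (1 : Matrix n n F)) * P)) := by
    rw [mul_add, mul_one, mul_smul_comm, add_mul, smul_mul_assoc, h1, sub_mul 1 P, one_mul, h1,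
      sub_self, add_zero, smul_smul, inv_mul_cancel₀ hμ, one_smul, ← hc.eq, mul_assoc, hP,
      sub_mul, smul_mul_assoc, one_mul]
    abel
  rw [dl, e, det_mul, det_idem hP, det_one_add_nil (hn.smul _), mul_one]

theorem rank_sum [CharZero F] {J : Type} (s : Finset J) {P : J → Matrix n n F}
    (hP : ∀ i, P i * P i = P i) (hs : (∑ i ∈ s, P i) * (∑ i ∈ s, P i) = ∑ i ∈ s, P i) :
    (∑ i ∈ s, P i).rank = ∑ i ∈ s, (P i).rank := by
  have h := trace_idem hs
  rw [trace_sum, Finset.sum_congr rfl fun i _ => trace_idem (hP i)] at h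
  exact_mod_cast h.symm

theorem rank_map [CharZero F] {F' : Type} [Field F'] (φ : F →+* F') {P : Matrix n n F}
    (hP : P * P = P) : (P.map φ).rank = P.rank := by
  have : CharZero F' := φ.charZero_iff φ.injective |>.1 inferInstance
  have h := trace_idem (P := P.map φ) (by rw [← Matrix.map_mul, hP])
  rw [← AddMonoidHom.map_trace φ P, trace_idem hP, map_natCast] at h
  exact_mod_cast h.symm

theorem dl_map {F' : Type} [Field F'] (φ : F →+* F') (P z : Matrix n n F) :
    dl (P.map φ) (z.map φ) = φ (dl P z) := by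
  rw [dl, dl, RingHom.map_det]
  simp only [map_add, map_mul, map_sub, map_one, RingHom.mapMatrix_apply]

section dec

variable {I J : Type} [Fintype I] [Fintype J] {e : I → Matrix n n F} {d : J → Matrix n n F}

theorem card_le [CharZero F] (he : IsDec e) (h0 : ∀ i, e i ≠ 0) :
    Fintype.card I ≤ Fintype.card n := by
  have h := congrArg trace he.sum
  rw [trace_sum, trace_one, Finset.sum_congr rfl fun i _ => trace_idem (he.idem i)] at h
  have h2 : ∑ i, (e i).rank = Fintype.card n := by exact_mod_cast h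
  rw [← h2, ← Finset.card_univ, Finset.card_eq_sum_ones]
  exact Finset.sum_le_sum fun i _ => Nat.one_le_iff_ne_zero.2 (rank_ne_zero (h0 i))

theorem dec_equiv (he : IsDec e) (φ : J ≃ I) : IsDec (e ∘ φ) :=
  ⟨(φ.sum_comp e).trans he.sum, fun _ => he.idem _, fun _ _ h => he.orth _ _ (φ.injective.ne h)⟩

theorem dec_prod (he : IsDec e) (hd : IsDec d) (hc : ∀ i j, Commute (e i) (d j)) :
    IsDec fun x : I × J => e x.1 * d x.2 := by
  have h : ∀ x y : I × J, e x.1 * d x.2 * (e y.1 * d y.2) = e x.1 * e y.1 * (d x.2 * d y.2) :=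
    fun x y => (hc y.1 x.2).symm.mul_mul_mul_comm _ _
  refine ⟨?_, fun x => by rw [h, he.idem, hd.idem], fun x y hxy => ?_⟩
  · rw [Fintype.sum_prod_type, ← Fintype.sum_mul_sum, he.sum, hd.sum, mul_one]
  · rw [h]
    by_cases h1 : x.1 = y.1
    · rw [hd.orth _ _ fun h2 => hxy (Prod.ext h1 h2), mul_zero]
    · rw [he.orth _ _ h1, zero_mul]

open Classical in
/-- The sum of the summands with the label `t`. -/
noncomputable def grp {T : Type} (d : J → Matrix n n F) (w : J → T) (t : T) : Matrix n n F :=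
  ∑ j with w j = t, d j

open Classical in
theorem grp_mul {T : Type} (hd : IsDec d) (w : J → T) (t : T) (j : J) :
    grp d w t * d j = if w j = t then d j else 0 := by
  rw [grp, Finset.sum_filter, Finset.sum_mul, Finset.sum_eq_single j]
  · split_ifs
    · exact hd.idem j
    · exact zero_mul _
  · intro i _ hi
    split_ifs
    · exact hd.orth _ _ hi
    · exact zero_mul _
  · simp

omit [DecidableEq n] [Fintype n] in
theorem sum_grp {T : Type} (w : J → T) (s : Finset T) (hs : ∀ j, d j ≠ 0 → w j ∈ s) (c : T → F) :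
    ∑ t : s, c t • grp d w t = ∑ j, c (w j) • d j := by
  classical
  rw [Finset.sum_coe_sort s fun t => c t • grp d w t]
  simp only [grp, Finset.sum_filter, Finset.smul_sum]
  rw [Finset.sum_comm]
  refine Finset.sum_congr rfl fun j _ => ?_
  rw [Finset.sum_eq_single (w j)]
  · simp
  · intro t _ ht
    simp [ht.symm]
  · intro h
    have h0 : d j = 0 := by_contra fun h1 => h (hs j h1)
    simp [h0]

open Classical in
theorem grp_mul_grp {T : Type} (hd : IsDec d) (w : J → T) (t u : T) :
    grp d w t * grp d w u = if u = t then grp d w t else 0 := by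
  conv_lhs => rw [grp.eq_1 d w u, Finset.mul_sum]
  simp only [grp_mul hd]
  split_ifs with h
  · subst h
    exact Finset.sum_congr rfl fun j hj => if_pos (Finset.mem_filter.1 hj).2
  · refine Finset.sum_eq_zero fun j hj => if_neg ?_
    rwa [(Finset.mem_filter.1 hj).2]

theorem dec_grp {T : Type} (hd : IsDec d) (w : J → T) (s : Finset T)
    (hs : ∀ j, d j ≠ 0 → w j ∈ s) : IsDec fun t : s => grp d w t := by
  refine ⟨?_, fun t => by rw [grp_mul_grp hd, if_pos rfl], fun t u h => ?_⟩
  · have h := sum_grp w s hs fun _ => (1 : F)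
    simp only [one_smul] at h
    rw [h, hd.sum]
  · rw [grp_mul_grp hd, if_neg fun e => h (Subtype.ext e).symm]

end dec

end Vale.Agent.P011Z.Mx
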